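import Vale.Agent.P114.Mv.Main
import Mathlib.MeasureTheory.Measure.Hausdorff

/-!
# P114: the entropy-rate dimension formula outside a small set of ratio parameters

Either all ratios are algebraic, or all absolute values are monomials in `s` parameters avoiding a
set of Hausdorff dimension at most `s - 1`. Translations and overlaps are arbitrary.
-/

namespace Vale.Agent.Results.P114.DimensionFormula

noncomputable section

open Finset MeasureTheory Vale.Agent.P114.Formula

/-- Outside one parameter set of dimension at most `s - 1`, the formula holds for all families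
with algebraic ratios or with ratios `± ∏ θ j ^ a i j`. -/
theorem result : ∀ s : ℕ, ∃ E : Set (Fin s → ℝ), dimH E ≤ ((s - 1 : ℕ) : ENNReal) ∧ volume E = 0 ∧
    (∀ θ ∈ E, (∀ j, θ j ∈ Set.Ioo (0 : ℝ) 1) ∧ ∃ j, Transcendental ℚ (θ j)) ∧
    ∀ (ι : Type) [Fintype ι] [Nonempty ι] (p r t : ι → ℝ), (∀ i, 0 < p i) → ∑ i, p i = 1 →
      (∀ i, r i ≠ 0) → (∀ i, |r i| < 1) →
      ((∀ i, IsAlgebraic ℚ (r i)) ∨
        ∃ θ : Fin s → ℝ, (∀ j, θ j ∈ Set.Ioo (0 : ℝ) 1) ∧ θ ∉ E ∧
          ∃ a : ι → Fin s → ℕ, ∀ i, |r i| = ∏ j, θ j ^ a i j) →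
      (∃ μ : Measure ℝ, IsProbabilityMeasure μ ∧
          μ = ∑ i, ENNReal.ofReal (p i) • μ.map (fun x => r i * x + t i)) ∧
        ∀ μ : Measure ℝ, IsProbabilityMeasure μ →
          μ = ∑ i, ENNReal.ofReal (p i) • μ.map (fun x => r i * x + t i) →
            lowerDim μ = ENNReal.ofReal (min 1 (hRW p r t / chi p r)) := by
  intro s
  refine ⟨Vale.Agent.P114.Mv.Exc s ∩ {θ | ∃ j, Transcendental ℚ (θ j)},
    (dimH_mono Set.inter_subset_left).trans (Vale.Agent.P114.Mv.dimH_exc s), ?_,
    fun θ h => ⟨h.1.1, h.2⟩, fun ι _ _ p r t hp hp1 hr0 hr1 h => ?_⟩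
  · rcases Nat.eq_zero_or_pos s with rfl | hs
    · refine measure_mono_null (t := ∅) (fun θ h => ?_) measure_empty
      obtain ⟨j, -⟩ := h.2
      exact j.elim0
    · rw [← hausdorffMeasure_pi_real]
      refine hausdorffMeasure_of_dimH_lt (d := (Fintype.card (Fin s) : NNReal))
        (lt_of_le_of_lt ((dimH_mono Set.inter_subset_left).trans
          (Vale.Agent.P114.Mv.dimH_exc s)) ?_)
      rw [Fintype.card_fin, ENNReal.coe_natCast]
      exact_mod_cast Nat.sub_lt hs one_pos
  refine formula_of_dim hp hp1 hr0 hr1 ?_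
  rcases h with halg | ⟨θ, h01, hE, a, ha⟩
  · exact exists_dim hp hp1 hr0 hr1 halg
  by_cases htr : ∃ j, Transcendental ℚ (θ j)
  · refine Vale.Agent.P114.Mv.exists_dim_mv h01 (fun h => hE ⟨h, htr⟩) hp hp1 a (fun i hi => ?_) ha
    have := ha i
    simp only [hi, Pi.zero_apply, pow_zero, prod_const_one] at this
    linarith [hr1 i]
  · refine exists_dim hp hp1 hr0 hr1 fun i => ?_
    have hpow : IsAlgebraic ℚ (∏ j, θ j ^ a i j) :=
      Finset.prod_induction _ (IsAlgebraic ℚ) (fun x y hx hy => hx.mul hy) isAlgebraic_one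
        fun j _ => IsAlgebraic.pow (not_not.1 fun hn => htr ⟨j, hn⟩) (a i j)
    rw [← ha i] at hpow
    rcases abs_choice (r i) with h' | h' <;> rw [h'] at hpow
    · exact hpow
    · simpa using hpow.neg

end

end Vale.Agent.Results.P114.DimensionFormula
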